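import Vale.Agent.P092.H144.Mono

/-!
P092 (helper361), block [B-TA0] of Project B: the averages `∑_{b ∈ B/V} R_b x R_b*` of a positive
operator whose sum is finite at one unit vector is a scalar `t`, and `x ≤ t`.
-/

set_option linter.all false

namespace Vale.Agent.P092.H361

open Filter Topology ContinuousLinearMap H144
open scoped InnerProductSpace

variable {H : Type*} [NormedAddCommGroup H] [InnerProductSpace ℂ H] [CompleteSpace H]
variable {B : Type*} [Group B]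

/-- The translate `R_b x R_b*`. -/
noncomputable def tr (R : B →* (H →L[ℂ] H)) (x : H →L[ℂ] H) (b : B) : H →L[ℂ] H :=
  R b * x * R b⁻¹

theorem R_mul_inv (R : B →* (H →L[ℂ] H)) (b : B) : R b * R b⁻¹ = 1 := by
  rw [← map_mul, mul_inv_cancel, map_one]

theorem R_inv_mul (R : B →* (H →L[ℂ] H)) (b : B) : R b⁻¹ * R b = 1 := by
  rw [← map_mul, inv_mul_cancel, map_one]

theorem tr_mul (R : B →* (H →L[ℂ] H)) (x : H →L[ℂ] H) (b c : B) :
    tr R x (b * c) = R b * tr R x c * R b⁻¹ := by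
  simp only [tr, mul_inv_rev, map_mul, mul_assoc]

theorem tr_eq_of_rel {R : B →* (H →L[ℂ] H)} {V : Subgroup B} {x : H →L[ℂ] H}
    (hxV : ∀ b ∈ V, R b * x = x * R b) {b c : B} (h : b⁻¹ * c ∈ V) : tr R x b = tr R x c := by
  have h1 : c = b * (b⁻¹ * c) := by group
  have h2 : tr R x c = tr R x (b * (b⁻¹ * c)) := congrArg _ h1
  rw [h2, tr_mul]
  have h3 : tr R x (b⁻¹ * c) = x := by
    rw [tr, hxV _ h, mul_assoc, R_mul_inv, mul_one]
  rw [h3]
  rfl

theorem tr_out {R : B →* (H →L[ℂ] H)} {V : Subgroup B} {x : H →L[ℂ] H}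
    (hxV : ∀ b ∈ V, R b * x = x * R b) (b : B) (q : B ⧸ V) :
    R b * tr R x q.out * R b⁻¹ = tr R x (b • q).out := by
  rw [← tr_mul]
  refine tr_eq_of_rel hxV ?_
  have h1 : ((b * q.out : B) : B ⧸ V) = (((b • q).out : B) : B ⧸ V) := by
    rw [QuotientGroup.out_eq']
    conv_rhs => rw [← QuotientGroup.out_eq' q]
    rfl
  exact QuotientGroup.eq.1 h1

theorem tr_pos {R : B →* (H →L[ℂ] H)} (hR : ∀ b, adjoint (R b) = R b⁻¹) {x : H →L[ℂ] H}
    (hx : x.IsPositive) (b : B) : (tr R x b).IsPositive := by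
  have h := hx.conj_adjoint (R b)
  rw [hR] at h
  exact h

theorem qf_tr {R : B →* (H →L[ℂ] H)} (hR : ∀ b, adjoint (R b) = R b⁻¹) (x : H →L[ℂ] H) (b : B)
    (ξ : H) : qf (tr R x b) ξ = qf x (R b⁻¹ ξ) := by
  have h : adjoint (R b⁻¹) = R b := by rw [hR, inv_inv]
  simp only [qf, tr]
  show (⟪ξ, R b (x (R b⁻¹ ξ))⟫_ℂ).re = _
  rw [← h, adjoint_inner_right]

theorem res_conj {R : B →* (H →L[ℂ] H)} (b : B) {a : H →L[ℂ] H}
    (ha : a.IsPositive) (ha' : (R b * a * R b⁻¹).IsPositive) :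
    R b * res a * R b⁻¹ = res (R b * a * R b⁻¹) := by
  have h1 : (1 + R b * a * R b⁻¹) = R b * (1 + a) * R b⁻¹ := by
    rw [mul_add, add_mul, mul_one, R_mul_inv]
  calc R b * res a * R b⁻¹ = R b * res a * R b⁻¹ * ((1 + R b * a * R b⁻¹) * res (R b * a * R b⁻¹)) := by
        rw [mul_res ha', mul_one]
    _ = R b * (res a * ((R b⁻¹ * R b) * (1 + a))) * R b⁻¹ * res (R b * a * R b⁻¹) := by
        rw [h1]; simp only [mul_assoc]
    _ = res (R b * a * R b⁻¹) := by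
        rw [R_inv_mul, one_mul, res_mul ha, mul_one, R_mul_inv, one_mul]

theorem sum_pos {ι : Type*} {T : ι → H →L[ℂ] H} (hpos : ∀ i, (T i).IsPositive) (F : Finset ι) :
    (∑ i ∈ F, T i).IsPositive := by
  classical
  induction F using Finset.induction_on with
  | empty => simpa using isPositive_zero
  | insert a F ha ih => rw [Finset.sum_insert ha]; exact (hpos a).add ih

/-- The left translation on `B ⧸ V`. -/
def permQ (V : Subgroup B) (b : B) : Equiv.Perm (B ⧸ V) := MulAction.toPerm b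

/-- **[B-TA0]** -/
theorem ta0 {R : B →* (H →L[ℂ] H)} (hR : ∀ b, adjoint (R b) = R b⁻¹) {V : Subgroup B}
    {𝒲 : Set (H →L[ℂ] H)} (hW : ∀ w ∈ 𝒲, ∀ b, w * R b = R b * w)
    (hsc : ∀ S : H →L[ℂ] H, (∀ b, R b * S = S * R b) → (∀ w ∈ 𝒲, w * S = S * w) →
      ∃ c : ℂ, S = c • (1 : H →L[ℂ] H))
    {x : H →L[ℂ] H} (hx : x.IsPositive) (hxV : ∀ b ∈ V, R b * x = x * R b)
    (hxW : ∀ w ∈ 𝒲, w * x = x * w) {ξ₀ : H} (h0 : ‖ξ₀‖ = 1) {C : ℝ}
    (hC : ∀ F : Finset (B ⧸ V), ∑ q ∈ F, qf x (R q.out⁻¹ ξ₀) ≤ C) :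
    ∃ t : ℝ, 0 ≤ t ∧ t ≤ C ∧
      (∀ ζ, HasSum (fun q : B ⧸ V => qf x (R q.out⁻¹ ζ)) (t * ‖ζ‖ ^ 2)) ∧
      (∀ ζ, HasSum (fun q : B ⧸ V => R q.out (x (R q.out⁻¹ ζ))) ((t : ℂ) • ζ)) ∧
      (∀ (F : Finset (B ⧸ V)) ζ, ∑ q ∈ F, qf x (R q.out⁻¹ ζ) ≤ t * ‖ζ‖ ^ 2) ∧
      ∀ (b : B) ζ, qf x (R b ζ) ≤ t * ‖ζ‖ ^ 2 := by
  classical
  set T : B ⧸ V → H →L[ℂ] H := fun q => tr R x q.out with hT
  have hpos : ∀ q, (T q).IsPositive := fun q => tr_pos hR hx _
  have hperm : ∀ (b : B) (q : B ⧸ V), R b * T q * R b⁻¹ = T (permQ V b q) := fun b q =>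
    tr_out hxV b q
  have hTw : ∀ w ∈ 𝒲, ∀ q, w * T q = T q * w := by
    intro w hw q
    simp only [hT, tr]
    calc w * (R q.out * x * R (q.out)⁻¹) = (w * R q.out) * x * R (q.out)⁻¹ := by
          simp only [mul_assoc]
      _ = R q.out * (w * x) * R (q.out)⁻¹ := by rw [hW w hw]; simp only [mul_assoc]
      _ = R q.out * x * (w * R (q.out)⁻¹) := by rw [hxW w hw]; simp only [mul_assoc]
      _ = R q.out * x * R (q.out)⁻¹ * w := by rw [hW w hw]; simp only [mul_assoc]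
  have hCT : ∀ F : Finset (B ⧸ V), ∑ q ∈ F, qf (T q) ξ₀ ≤ C := by
    intro F
    simp only [hT, qf_tr hR]
    exact hC F
  have hbound : ∀ (F : Finset (B ⧸ V)) (η : H), ∑ q ∈ F, qf (T q) η ≤ C * ‖η‖ ^ 2 := by
    intro F η
    refine resolvent T hpos h0 hCT ?_ F η
    intro S hS hlim
    refine hsc S ?_ ?_
    · intro b
      ext ξ
      have h1 : Tendsto (fun F : Finset (B ⧸ V) => R b (res (∑ q ∈ F, T q) ξ)) atTop
          (𝓝 (R b (S ξ))) := ((R b).continuous.tendsto _).comp (hlim ξ)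
      have h2 : Tendsto (fun F : Finset (B ⧸ V) => F.map (permQ V b).toEmbedding) atTop atTop := by
        refine tendsto_atTop_atTop.2 fun F => ⟨F.map (permQ V b).symm.toEmbedding, fun F' hF' => ?_⟩
        intro q hq
        rw [Finset.mem_map]
        refine ⟨(permQ V b).symm q, hF' ?_, by simp⟩
        rw [Finset.mem_map]
        exact ⟨q, hq, rfl⟩
      have h3 := (hlim (R b ξ)).comp h2
      refine tendsto_nhds_unique h1 (h3.congr fun F => ?_)
      show res (∑ q ∈ F.map (permQ V b).toEmbedding, T q) (R b ξ) = R b (res (∑ q ∈ F, T q) ξ)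
      have h4 : (∑ q ∈ F.map (permQ V b).toEmbedding, T q) = R b * (∑ q ∈ F, T q) * R b⁻¹ := by
        rw [Finset.sum_map, Finset.mul_sum, Finset.sum_mul]
        exact Finset.sum_congr rfl fun q _ => (hperm b q).symm
      rw [h4, ← res_conj b (sum_pos hpos F) (h4 ▸ sum_pos hpos _)]
      show R b (res (∑ q ∈ F, T q) (R b⁻¹ (R b ξ))) = _
      have h5 : R b⁻¹ (R b ξ) = ξ := by
        have := congrArg (fun A : H →L[ℂ] H => A ξ) (R_inv_mul R b)
        simpa using this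
      rw [h5]
    · intro w hw
      ext ξ
      have h1 : Tendsto (fun F : Finset (B ⧸ V) => w (res (∑ q ∈ F, T q) ξ)) atTop
          (𝓝 (w (S ξ))) := (w.continuous.tendsto _).comp (hlim ξ)
      refine tendsto_nhds_unique h1 ((hlim (w ξ)).congr fun F => ?_)
      have h2 : w * (∑ q ∈ F, T q) = (∑ q ∈ F, T q) * w := by
        rw [Finset.mul_sum, Finset.sum_mul]
        exact Finset.sum_congr rfl fun q _ => hTw w hw q
      have h3 := res_comm (sum_pos hpos F) h2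
      exact (congrArg (fun A : H →L[ℂ] H => A ξ) h3).symm
  obtain ⟨S, hS, hS1, hS2, hS3⟩ := pos_sum T hpos hbound
  obtain ⟨c, hc⟩ := hsc S
    (fun b => by
      ext ξ
      refine sum_comm hS3 (R b) (permQ V b) (fun q ξ => ?_) ξ
      rw [← hperm b q]
      show R b (T q ξ) = R b (T q (R b⁻¹ (R b ξ)))
      have h5 : R b⁻¹ (R b ξ) = ξ := by
        have := congrArg (fun A : H →L[ℂ] H => A ξ) (R_inv_mul R b)
        simpa using this
      rw [h5])
    (fun w hw => by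
      ext ξ
      refine sum_comm hS3 w (Equiv.refl _) (fun q ξ => ?_) ξ
      exact congrArg (fun A : H →L[ℂ] H => A ξ) (hTw w hw q))
  -- the scalar is real
  have hSζ : ∀ ζ, S ζ = c • ζ := by
    intro ζ
    rw [hc]
    simp
  have hcr : c = (c.re : ℂ) := by
    have h1 := inner_eq_qf hS ξ₀
    rw [hSζ, inner_smul_right, inner_self_eq_norm_sq_to_K, h0] at h1
    have h2 : c = ((qf S ξ₀ : ℝ) : ℂ) := by simpa using h1
    rw [h2, Complex.ofReal_re]
  have hqS : ∀ ζ, qf S ζ = c.re * ‖ζ‖ ^ 2 := by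
    intro ζ
    have h1 : S = ((c.re : ℝ) : ℂ) • (1 : H →L[ℂ] H) := by rw [← hcr]; exact hc
    rw [h1, qf_smul_one]
  have hsum : ∀ ζ, HasSum (fun q : B ⧸ V => qf x (R q.out⁻¹ ζ)) (c.re * ‖ζ‖ ^ 2) := by
    intro ζ
    have h1 := (hS3 ζ).mapL (innerSL ℂ ζ)
    have h2 := Complex.hasSum_re h1
    have h3 : (c.re * ‖ζ‖ ^ 2) = (innerSL ℂ ζ (S ζ)).re := (hqS ζ).symm
    rw [h3]
    have h4 : (fun q : B ⧸ V => qf x (R q.out⁻¹ ζ)) = fun q => (innerSL ℂ ζ (T q ζ)).re := by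
      funext q
      exact (qf_tr hR x q.out ζ).symm
    rw [h4]
    exact h2
  have ht0 : 0 ≤ c.re := by
    have h1 := hqS ξ₀
    rw [h0] at h1
    have h2 := qf_nonneg hS ξ₀
    simpa [h1] using h2
  have hle : ∀ (F : Finset (B ⧸ V)) ζ, ∑ q ∈ F, qf x (R q.out⁻¹ ζ) ≤ c.re * ‖ζ‖ ^ 2 :=
    fun F ζ => sum_le_hasSum F (fun q _ => qf_nonneg hx _) (hsum ζ)
  refine ⟨c.re, ht0, ?_, hsum, ?_, hle, ?_⟩
  · have h1 := hqS ξ₀
    have h2 := hS2 ξ₀
    rw [h1, h0] at h2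
    simpa using h2
  · intro ζ
    rw [← hcr, ← hSζ]
    exact hS3 ζ
  · intro b ζ
    have h1 := hle {((b⁻¹ : B) : B ⧸ V)} ζ
    rw [Finset.sum_singleton, ← qf_tr hR] at h1
    have h2 : tr R x (((b⁻¹ : B) : B ⧸ V)).out = tr R x b⁻¹ := by
      refine (tr_eq_of_rel hxV ?_).symm
      exact QuotientGroup.eq.1 (QuotientGroup.out_eq' _).symm
    rw [h2, qf_tr hR, inv_inv] at h1
    exact h1

end Vale.Agent.P092.H361
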