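import Mathlib

/-!
P092 (helper361), [COMPL]: two dense homomorphisms of a group into locally compact groups which
induce the same topology differ by an isomorphism of topological groups.
-/

set_option linter.all false

namespace Vale.Agent.P092.H361

open Filter Topology

section
variable {Γ H H' : Type*} [Group Γ] [Group H] [Group H'] [TopologicalSpace H]
  [TopologicalSpace H'] [IsTopologicalGroup H] [IsTopologicalGroup H']

theorem lim_exists [WeaklyLocallyCompactSpace H] (p' : Γ →* H') (q : Γ →* H)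
    (hd : DenseRange p') (hle : comap p' (𝓝 1) ≤ comap q (𝓝 1)) (h : H') :
    ∃ c : H, Tendsto q (comap p' (𝓝 h)) (𝓝 c) := by
  have hne : (comap p' (𝓝 h)).NeBot := by
    letI : TopologicalSpace Γ := TopologicalSpace.induced p' inferInstance
    have di : IsDenseInducing p' := ⟨⟨rfl⟩, hd⟩
    exact di.comap_nhds_neBot h
  letI : UniformSpace H := IsTopologicalGroup.rightUniformSpace H
  haveI : IsRightUniformGroup H := ⟨rfl⟩
  haveI : CompleteSpace H := IsRightUniformGroup.completeSpace_of_weaklyLocallyCompactSpace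
  have h1 : Cauchy (map q (comap p' (𝓝 h))) := by
    rw [cauchy_map_iff, uniformity_eq_comap_nhds_one, tendsto_comap_iff]
    refine ⟨hne, ?_⟩
    have h2 : Tendsto (fun x : Γ × Γ => p' (x.2 / x.1)) (comap p' (𝓝 h) ×ˢ comap p' (𝓝 h))
        (𝓝 1) := by
      have h3 : Tendsto (fun x : Γ × Γ => p' x.2 / p' x.1) (comap p' (𝓝 h) ×ˢ comap p' (𝓝 h))
          (𝓝 (h / h)) := by
        have h4 : Tendsto (fun x : Γ × Γ => p' x.1) (comap p' (𝓝 h) ×ˢ comap p' (𝓝 h)) (𝓝 h) :=
          tendsto_comap.comp tendsto_fst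
        have h5 : Tendsto (fun x : Γ × Γ => p' x.2) (comap p' (𝓝 h) ×ˢ comap p' (𝓝 h)) (𝓝 h) :=
          tendsto_comap.comp tendsto_snd
        exact h5.div' h4
      simpa only [map_div, div_self'] using h3
    have h6 : Tendsto (fun x : Γ × Γ => x.2 / x.1) (comap p' (𝓝 h) ×ˢ comap p' (𝓝 h))
        (comap p' (𝓝 1)) := tendsto_comap_iff.2 h2
    have h7 := (tendsto_comap.comp (h6.mono_right hle) : Tendsto (q ∘ fun x : Γ × Γ => x.2 / x.1)
      (comap p' (𝓝 h) ×ˢ comap p' (𝓝 h)) (𝓝 1))
    refine h7.congr fun x => ?_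
    simp [map_div]
  obtain ⟨c, hc⟩ := CompleteSpace.complete h1
  exact ⟨c, hc⟩

theorem ext1 [WeaklyLocallyCompactSpace H] [T2Space H] (p' : Γ →* H') (q : Γ →* H)
    (hd : DenseRange p') (hle : comap p' (𝓝 1) ≤ comap q (𝓝 1)) :
    ∃ ψ : H' →* H, Continuous ψ ∧ ∀ g, ψ (p' g) = q g := by
  letI : TopologicalSpace Γ := TopologicalSpace.induced p' inferInstance
  have di : IsDenseInducing p' := ⟨⟨rfl⟩, hd⟩
  have hlim := lim_exists p' q hd hle
  have hcont : Continuous (di.extend q) := di.continuous_extend hlim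
  have heq : ∀ g, di.extend q (p' g) = q g := by
    intro g
    obtain ⟨c, hc⟩ := hlim (p' g)
    have h1 : 𝓝 g = comap p' (𝓝 (p' g)) := di.nhds_eq_comap g
    rw [di.extend_eq_of_tendsto hc]
    have h2 : Tendsto q (pure g) (𝓝 c) := hc.mono_left (h1 ▸ pure_le_nhds g)
    have h3 : Tendsto q (pure g) (𝓝 (q g)) := tendsto_pure_nhds q g
    exact tendsto_nhds_unique h2 h3
  have hmul : ∀ a b : H', di.extend q (a * b) = di.extend q a * di.extend q b := by
    intro a b
    refine hd.induction_on₂ (p := fun a b => di.extend q (a * b) = di.extend q a * di.extend q b)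
      ?_ ?_ a b
    · exact isClosed_eq (hcont.comp (continuous_fst.mul continuous_snd))
        ((hcont.comp continuous_fst).mul (hcont.comp continuous_snd))
    · intro g g'
      rw [← map_mul, heq, heq, heq, map_mul]
  refine ⟨MonoidHom.mk' (di.extend q) hmul, hcont, heq⟩

/-- **[COMPL]** -/
theorem compl [WeaklyLocallyCompactSpace H] [T2Space H] [WeaklyLocallyCompactSpace H'] [T2Space H']
    (p' : Γ →* H') (q : Γ →* H) (hp : DenseRange p') (hq : DenseRange q)
    (h : comap p' (𝓝 1) = comap q (𝓝 1)) : ∃ ψ : H' ≃ₜ* H, ∀ g, ψ (p' g) = q g := by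
  obtain ⟨ψ, hψ, h1⟩ := ext1 p' q hp h.le
  obtain ⟨φ, hφ, h2⟩ := ext1 q p' hq h.ge
  have h3 : ∀ a, φ (ψ a) = a := by
    intro a
    refine hp.induction_on (p := fun a => φ (ψ a) = a) a (isClosed_eq (hφ.comp hψ) continuous_id) ?_
    intro g
    rw [h1, h2]
  have h4 : ∀ a, ψ (φ a) = a := by
    intro a
    refine hq.induction_on (p := fun a => ψ (φ a) = a) a (isClosed_eq (hψ.comp hφ) continuous_id) ?_
    intro g
    rw [h2, h1]
  refine ⟨{ toFun := ψ, invFun := φ, left_inv := h3, right_inv := h4, map_mul' := map_mul ψ,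
            continuous_toFun := hψ, continuous_invFun := hφ }, h1⟩

end
end Vale.Agent.P092.H361
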