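import Vale.Agent.P092.H464.Pv

/-!
P092, TEAM D, block [D-KAK], part (KA) of the plan of helper464 (#4813): the abstract core of the
Kakeya lemma (no geometry) and the insertion of a point algebra by incidence.
-/

namespace Vale.Agent.P092.H361

open Vale.Agent.P092.H464

variable {K : Type*} [NormedAddCommGroup K] [InnerProductSpace ℂ K] [CompleteSpace K]

/-- insertion: if the product is carried away from all incident configurations it vanishes -/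
theorem ins_op {X Y : Type*} [MeasurableSpace X] [MeasurableSpace Y] {I : X → Y → Prop}
    {Pb Pc : Set X → (K →L[ℂ] K)} {Ll Lm : Set Y → (K →L[ℂ] K)}
    (hc : Pv Pc) (hl : Pv Ll) (hbl : CI I Pb Ll) (hcl : CI I Pc Ll) (hcm : CI I Pc Lm)
    {A Zc Zm : Set X} {N N' B : Set Y} (hA : MeasurableSet A) (hZc : MeasurableSet Zc)
    (hZm : MeasurableSet Zm) (hN : MeasurableSet N) (hN' : MeasurableSet N')
    (hB : MeasurableSet B) (hNN : N' ⊆ N) (hZZ : Zm ⊆ Zc)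
    (h1 : ∀ x ∈ A, ∀ ν ∈ N \ N', ¬ I x ν) (h2 : ∀ z ∈ Zc \ Zm, ∀ μ ∈ B, ¬ I z μ)
    (h3 : ∀ z ∈ Zm, ∀ ν ∈ N', ¬ I z ν) :
    Pc Zc * Lm B * Pb A * Ll N = 0 := by
  have e1 : Pb A * Ll N = Ll N' * Pb A := by
    rw [hl.split hN' hN, Set.inter_eq_self_of_subset_right hNN, mul_add,
      hbl.inc A (N \ N') hA (hN.diff hN') h1, add_zero, hbl.comm A N' hA hN']
  have e2 : Pc Zc * Lm B = Lm B * Pc Zm := by
    rw [hc.split hZm hZc, Set.inter_eq_self_of_subset_right hZZ, add_mul,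
      hcm.inc (Zc \ Zm) B (hZc.diff hZm) hB h2, add_zero, hcm.comm Zm B hZm hB]
  rw [mul_assoc, e1, e2, mul_assoc, ← mul_assoc (Pc Zm), hcl.inc Zm N' hZm hN' h3, zero_mul,
    mul_zero]

/-- one scale of one index `k` -/
theorem core_scale {X' X Y ι : Type*} [MeasurableSpace X'] [MeasurableSpace X]
    [MeasurableSpace Y] {Pb : Set X' → (K →L[ℂ] K)} {Pc : Set X → (K →L[ℂ] K)}
    {Lm : Set Y → (K →L[ℂ] K)} (hc : Pv Pc) {B : Set Y}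
    {Z : ℤ → Set X} (hZ : ∀ c, MeasurableSet (Z c)) {MZ : ℕ}
    (hMZ : ∀ x, ∀ t : Finset ℤ, (∀ c ∈ t, x ∈ Z c) → t.card ≤ MZ)
    {q : K →L[ℂ] K} {T : Finset ι} {Q : ι → Set X'} {d : ι → ℂ} {a : ι → ℤ} {D C : ℝ}
    (size : ∀ i ∈ T, ‖d i‖ ≤ D)
    (count : ∀ c, ((T.filter (fun i => a i = c)).card : ℝ) ≤ C)
    (ins : ∀ i ∈ T, Pc (Z (a i))ᶜ * Lm B * Pb (Q i) * q = 0) (ζ : K) :
    ‖Lm B (∑ i ∈ T, d i • Pb (Q i) (q ζ))‖ ^ 2 ≤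
      MZ * C * D ^ 2 * ∑ i ∈ T, ‖Lm B (Pb (Q i) (q ζ))‖ ^ 2 := by
  classical
  set v : ι → K := fun i => Lm B (Pb (Q i) (q ζ)) with hv
  have hins : ∀ i ∈ T, Pc (Z (a i)) (v i) = v i := by
    intro i hi
    have h := congrArg (fun R : K →L[ℂ] K => R ζ) (ins i hi)
    rw [hc.compl _ (hZ _)] at h
    simp only [mul_apply_eq_comp, sub_apply, one_apply_eq_self, zero_apply] at h
    exact (sub_eq_zero.1 h).symm
  -- group by the value of `a`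
  set η : ℤ → K := fun c => ∑ i ∈ T.filter (fun i => a i = c), d i • v i with hη
  have e1 : Lm B (∑ i ∈ T, d i • Pb (Q i) (q ζ)) = ∑ c ∈ T.image a, Pc (Z c) (η c) := by
    rw [map_sum]
    simp only [map_smul]
    rw [← Finset.sum_fiberwise_of_maps_to (g := a) (t := T.image a)
      (fun i hi => Finset.mem_image_of_mem a hi)]
    refine Finset.sum_congr rfl fun c _ => ?_
    rw [hη, map_sum]
    refine Finset.sum_congr rfl fun i hi => ?_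
    obtain ⟨hiT, hic⟩ := Finset.mem_filter.1 hi
    rw [map_smul, ← hic, hins i hiT]
  have e2 : ∀ c, ‖η c‖ ^ 2 ≤
      C * D ^ 2 * ∑ i ∈ T.filter (fun i => a i = c), ‖v i‖ ^ 2 := by
    intro c
    have s1 : ‖η c‖ ≤ ∑ i ∈ T.filter (fun i => a i = c), ‖d i‖ * ‖v i‖ := by
      refine (norm_sum_le _ _).trans (Finset.sum_le_sum fun i _ => ?_)
      rw [norm_smul]
    have s2 : ‖η c‖ ^ 2 ≤ (∑ i ∈ T.filter (fun i => a i = c), ‖d i‖ ^ 2) *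
        ∑ i ∈ T.filter (fun i => a i = c), ‖v i‖ ^ 2 :=
      (pow_le_pow_left₀ (norm_nonneg _) s1 2).trans (Finset.sum_mul_sq_le_sq_mul_sq _ _ _)
    have s3 : ∑ i ∈ T.filter (fun i => a i = c), ‖d i‖ ^ 2 ≤ C * D ^ 2 := by
      calc ∑ i ∈ T.filter (fun i => a i = c), ‖d i‖ ^ 2
          ≤ ∑ i ∈ T.filter (fun i => a i = c), D ^ 2 := Finset.sum_le_sum fun i hi =>
            pow_le_pow_left₀ (norm_nonneg _) (size i (Finset.mem_filter.1 hi).1) 2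
        _ = ((T.filter (fun i => a i = c)).card : ℝ) * D ^ 2 := by
            rw [Finset.sum_const, nsmul_eq_mul]
        _ ≤ C * D ^ 2 := mul_le_mul_of_nonneg_right (count c) (sq_nonneg D)
    exact s2.trans (mul_le_mul_of_nonneg_right s3 (Finset.sum_nonneg fun i _ => sq_nonneg _))
  rw [e1]
  have e3 := hc.mult' (T.image a) Z (fun c _ => hZ c) MZ (fun x t _ ht => hMZ x t ht) η
  refine e3.trans ?_
  have e4 : ∑ c ∈ T.image a, ‖η c‖ ^ 2 ≤ C * D ^ 2 * ∑ i ∈ T, ‖v i‖ ^ 2 := by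
    calc ∑ c ∈ T.image a, ‖η c‖ ^ 2
        ≤ ∑ c ∈ T.image a, C * D ^ 2 * ∑ i ∈ T.filter (fun i => a i = c), ‖v i‖ ^ 2 :=
          Finset.sum_le_sum fun c _ => e2 c
      _ = C * D ^ 2 * ∑ i ∈ T, ‖v i‖ ^ 2 := by
          rw [← Finset.mul_sum, Finset.sum_fiberwise_of_maps_to
            (fun i hi => Finset.mem_image_of_mem a hi)]
  calc (MZ : ℝ) * ∑ c ∈ T.image a, ‖η c‖ ^ 2
      ≤ MZ * (C * D ^ 2 * ∑ i ∈ T, ‖v i‖ ^ 2) :=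
        mul_le_mul_of_nonneg_left e4 (Nat.cast_nonneg _)
    _ = MZ * C * D ^ 2 * ∑ i ∈ T, ‖v i‖ ^ 2 := by ring

/-- (KA): the abstract core of the Kakeya lemma. -/
theorem core {X' X Y ι κ : Type*} [MeasurableSpace X'] [MeasurableSpace X]
    [MeasurableSpace Y] {Pb : Set X' → (K →L[ℂ] K)} {Pc : Set X → (K →L[ℂ] K)}
    {Lm : Set Y → (K →L[ℂ] K)} (hb : Pv Pb) (hc : Pv Pc) (hm : Pv Lm)
    (S : Finset κ) (B : κ → Set Y) (hB : ∀ k ∈ S, MeasurableSet (B k)) (MB : ℕ)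
    (hMB : ∀ y, ∀ t ⊆ S, (∀ k ∈ t, y ∈ B k) → t.card ≤ MB)
    (Z : ℤ → Set X) (hZ : ∀ c, MeasurableSet (Z c)) (MZ : ℕ)
    (hMZ : ∀ x, ∀ t : Finset ℤ, (∀ c ∈ t, x ∈ Z c) → t.card ≤ MZ)
    (W : κ → (K →L[ℂ] K)) (q : K →L[ℂ] K) (L : ℕ) (T : κ → ℕ → Finset ι)
    (Q : ℕ → ι → Set X') (hQ : ∀ n < L, ∀ i, MeasurableSet (Q n i))
    (hQd : ∀ n < L, ∀ i j, i ≠ j → Disjoint (Q n i) (Q n j))
    (d : κ → ℕ → ι → ℂ) (a : ℕ → ι → ℤ) (ε Cd Cc : ℝ) (hCc : 0 ≤ Cc) (ζ : K)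
    (dec : ∀ k ∈ S, ‖W k (q ζ) - ∑ n ∈ Finset.range L, ∑ i ∈ T k n,
      d k n i • Pb (Q n i) (q ζ)‖ ≤ ε * ‖q ζ‖)
    (size : ∀ k ∈ S, ∀ n < L, ∀ i ∈ T k n, ‖d k n i‖ ≤ Cd / 2 ^ n)
    (count : ∀ k ∈ S, ∀ n < L, ∀ c,
      (((T k n).filter (fun i => a n i = c)).card : ℝ) ≤ Cc * 4 ^ n)
    (ins : ∀ k ∈ S, ∀ n < L, ∀ i ∈ T k n,
      Pc (Z (a n i))ᶜ * Lm (B k) * Pb (Q n i) * q = 0) :
    ∑ k ∈ S, ‖Lm (B k) (W k (q ζ))‖ ^ 2 ≤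
      (L + 1) * (L * MZ * Cc * Cd ^ 2 * MB + S.card * ε ^ 2) * ‖q ζ‖ ^ 2 := by
  classical
  -- the pieces
  set v : κ → ℕ → K := fun k n => Lm (B k) (∑ i ∈ T k n, d k n i • Pb (Q n i) (q ζ)) with hv
  set r : κ → K := fun k => W k (q ζ) - ∑ n ∈ Finset.range L, ∑ i ∈ T k n,
      d k n i • Pb (Q n i) (q ζ) with hr
  have h1 : ∀ k ∈ S, ‖Lm (B k) (W k (q ζ))‖ ^ 2 ≤
      (L + 1) * (∑ n ∈ Finset.range L, ‖v k n‖ ^ 2 + ε ^ 2 * ‖q ζ‖ ^ 2) := by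
    intro k hk
    have e : Lm (B k) (W k (q ζ)) = ∑ n ∈ Finset.range L, v k n + Lm (B k) (r k) := by
      simp only [hv, hr]
      rw [← map_sum, ← map_add, add_sub_cancel]
    have hrk : ‖Lm (B k) (r k)‖ ≤ ε * ‖q ζ‖ := (hm.norm_le (hB k hk) _).trans (dec k hk)
    have hrk2 : ‖Lm (B k) (r k)‖ ^ 2 ≤ ε ^ 2 * ‖q ζ‖ ^ 2 := by
      rw [← mul_pow]; exact pow_le_pow_left₀ (norm_nonneg _) hrk 2
    have n1 : ‖Lm (B k) (W k (q ζ))‖ ≤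
        ∑ n ∈ Finset.range (L + 1), (if n < L then ‖v k n‖ else ‖Lm (B k) (r k)‖) := by
      rw [e, Finset.sum_range_succ, if_neg (lt_irrefl L)]
      refine (norm_add_le _ _).trans (add_le_add_left ((norm_sum_le _ _).trans (le_of_eq ?_)) _)
      exact Finset.sum_congr rfl fun n hn => by rw [if_pos (Finset.mem_range.1 hn)]
    have n3 : (∑ n ∈ Finset.range (L + 1), (if n < L then ‖v k n‖ else ‖Lm (B k) (r k)‖)) ^ 2 ≤
        (L + 1) * ∑ n ∈ Finset.range (L + 1),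
          (if n < L then ‖v k n‖ else ‖Lm (B k) (r k)‖) ^ 2 := by
      have := sq_sum_le_card_mul_sum_sq (s := Finset.range (L + 1))
        (f := fun n => if n < L then ‖v k n‖ else ‖Lm (B k) (r k)‖)
      rwa [Finset.card_range, Nat.cast_add, Nat.cast_one] at this
    refine (pow_le_pow_left₀ (norm_nonneg _) n1 2).trans (n3.trans ?_)
    refine mul_le_mul_of_nonneg_left ?_ (by positivity)
    rw [Finset.sum_range_succ, if_neg (lt_irrefl L)]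
    refine add_le_add (le_of_eq ?_) hrk2
    exact Finset.sum_congr rfl fun n hn => by rw [if_pos (Finset.mem_range.1 hn)]
  have h2 : ∀ n < L, ∑ k ∈ S, ‖v k n‖ ^ 2 ≤ MZ * Cc * Cd ^ 2 * MB * ‖q ζ‖ ^ 2 := by
    intro n hn
    set U : Finset ι := S.biUnion (fun k => T k n) with hU
    have s1 : ∀ k ∈ S, ‖v k n‖ ^ 2 ≤
        MZ * Cc * Cd ^ 2 * ∑ i ∈ U, ‖Lm (B k) (Pb (Q n i) (q ζ))‖ ^ 2 := by
      intro k hk
      have t1 := core_scale (Pb := Pb) (Lm := Lm) (B := B k) (q := q) (T := T k n) (Q := Q n)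
        (d := d k n) (a := a n) (D := Cd / 2 ^ n) (C := Cc * 4 ^ n) hc hZ hMZ
        (size k hk n hn) (count k hk n hn) (ins k hk n hn) ζ
      refine t1.trans ?_
      have t2 : (MZ : ℝ) * (Cc * 4 ^ n) * (Cd / 2 ^ n) ^ 2 = MZ * Cc * Cd ^ 2 := by
        have : (4 : ℝ) ^ n = (2 ^ n) ^ 2 := by rw [← pow_mul, mul_comm, pow_mul]; norm_num
        rw [this, div_pow]
        have h0 : ((2 : ℝ) ^ n) ^ 2 ≠ 0 := by positivity
        field_simp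
      rw [t2]
      refine mul_le_mul_of_nonneg_left ?_ (by positivity)
      exact Finset.sum_le_sum_of_subset_of_nonneg
        (Finset.subset_biUnion_of_mem (fun k => T k n) hk) fun i _ _ => sq_nonneg _
    have s2 : ∀ i, ∑ k ∈ S, ‖Lm (B k) (Pb (Q n i) (q ζ))‖ ^ 2 ≤ MB * ‖Pb (Q n i) (q ζ)‖ ^ 2 :=
      fun i => hm.mult S B hB MB hMB _
    have s3 : ∑ i ∈ U, ‖Pb (Q n i) (q ζ)‖ ^ 2 ≤ ‖q ζ‖ ^ 2 :=
      hb.bessel U (Q n) (fun i _ => hQ n hn i) (fun i _ j _ hij => hQd n hn i j hij) _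
    calc ∑ k ∈ S, ‖v k n‖ ^ 2
        ≤ ∑ k ∈ S, MZ * Cc * Cd ^ 2 * ∑ i ∈ U, ‖Lm (B k) (Pb (Q n i) (q ζ))‖ ^ 2 :=
          Finset.sum_le_sum s1
      _ = MZ * Cc * Cd ^ 2 * ∑ i ∈ U, ∑ k ∈ S, ‖Lm (B k) (Pb (Q n i) (q ζ))‖ ^ 2 := by
          rw [← Finset.mul_sum, Finset.sum_comm]
      _ ≤ MZ * Cc * Cd ^ 2 * ∑ i ∈ U, MB * ‖Pb (Q n i) (q ζ)‖ ^ 2 :=
          mul_le_mul_of_nonneg_left (Finset.sum_le_sum fun i _ => s2 i) (by positivity)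
      _ = MZ * Cc * Cd ^ 2 * MB * ∑ i ∈ U, ‖Pb (Q n i) (q ζ)‖ ^ 2 := by
          rw [← Finset.mul_sum]; ring
      _ ≤ MZ * Cc * Cd ^ 2 * MB * ‖q ζ‖ ^ 2 :=
          mul_le_mul_of_nonneg_left s3 (by positivity)
  calc ∑ k ∈ S, ‖Lm (B k) (W k (q ζ))‖ ^ 2
      ≤ ∑ k ∈ S, (L + 1) * (∑ n ∈ Finset.range L, ‖v k n‖ ^ 2 + ε ^ 2 * ‖q ζ‖ ^ 2) :=
        Finset.sum_le_sum h1
    _ = (L + 1) * (∑ n ∈ Finset.range L, ∑ k ∈ S, ‖v k n‖ ^ 2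
          + S.card * (ε ^ 2 * ‖q ζ‖ ^ 2)) := by
        rw [← Finset.mul_sum, Finset.sum_add_distrib, Finset.sum_comm, Finset.sum_const,
          nsmul_eq_mul]
    _ ≤ (L + 1) * (∑ n ∈ Finset.range L, MZ * Cc * Cd ^ 2 * MB * ‖q ζ‖ ^ 2
          + S.card * (ε ^ 2 * ‖q ζ‖ ^ 2)) := by
        refine mul_le_mul_of_nonneg_left (add_le_add_left ?_ _) (by positivity)
        exact Finset.sum_le_sum fun n hn => h2 n (Finset.mem_range.1 hn)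
    _ = (L + 1) * (L * MZ * Cc * Cd ^ 2 * MB + S.card * ε ^ 2) * ‖q ζ‖ ^ 2 := by
        rw [Finset.sum_const, Finset.card_range, nsmul_eq_mul]; ring

/-- (KA) with the decomposition hypothesis in operator norm (the literal of #4813). -/
theorem core_op {X' X Y ι κ : Type*} [MeasurableSpace X'] [MeasurableSpace X]
    [MeasurableSpace Y] {Pb : Set X' → (K →L[ℂ] K)} {Pc : Set X → (K →L[ℂ] K)}
    {Lm : Set Y → (K →L[ℂ] K)} (hb : Pv Pb) (hc : Pv Pc) (hm : Pv Lm)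
    (S : Finset κ) (B : κ → Set Y) (hB : ∀ k ∈ S, MeasurableSet (B k)) (MB : ℕ)
    (hMB : ∀ y, ∀ t ⊆ S, (∀ k ∈ t, y ∈ B k) → t.card ≤ MB)
    (Z : ℤ → Set X) (hZ : ∀ c, MeasurableSet (Z c)) (MZ : ℕ)
    (hMZ : ∀ x, ∀ t : Finset ℤ, (∀ c ∈ t, x ∈ Z c) → t.card ≤ MZ)
    (W : κ → (K →L[ℂ] K)) (q : K →L[ℂ] K) (L : ℕ) (T : κ → ℕ → Finset ι)
    (Q : ℕ → ι → Set X') (hQ : ∀ n < L, ∀ i, MeasurableSet (Q n i))
    (hQd : ∀ n < L, ∀ i j, i ≠ j → Disjoint (Q n i) (Q n j))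
    (d : κ → ℕ → ι → ℂ) (a : ℕ → ι → ℤ) (ε Cd Cc : ℝ) (hCc : 0 ≤ Cc) (ζ : K)
    (dec : ∀ k ∈ S, ‖W k - ∑ n ∈ Finset.range L, ∑ i ∈ T k n, d k n i • Pb (Q n i)‖ ≤ ε)
    (size : ∀ k ∈ S, ∀ n < L, ∀ i ∈ T k n, ‖d k n i‖ ≤ Cd / 2 ^ n)
    (count : ∀ k ∈ S, ∀ n < L, ∀ c,
      (((T k n).filter (fun i => a n i = c)).card : ℝ) ≤ Cc * 4 ^ n)
    (ins : ∀ k ∈ S, ∀ n < L, ∀ i ∈ T k n,
      Pc (Z (a n i))ᶜ * Lm (B k) * Pb (Q n i) * q = 0) :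
    ∑ k ∈ S, ‖Lm (B k) (W k (q ζ))‖ ^ 2 ≤
      (L + 1) * (L * MZ * Cc * Cd ^ 2 * MB + S.card * ε ^ 2) * ‖q ζ‖ ^ 2 := by
  refine core hb hc hm S B hB MB hMB Z hZ MZ hMZ W q L T Q hQ hQd d a ε Cd Cc hCc ζ ?_
    size count ins
  intro k hk
  have h := (W k - ∑ n ∈ Finset.range L, ∑ i ∈ T k n, d k n i • Pb (Q n i)).le_opNorm (q ζ)
  rw [sub_apply, sum_apply] at h
  simp only [sum_apply, smul_apply] at h
  exact h.trans (mul_le_mul_of_nonneg_right (dec k hk) (norm_nonneg _))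

end Vale.Agent.P092.H361
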