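import Vale.Agent.P092.H971.GF0

/-!
P092 (helper361), [KAPPA] part 1: finitely additive functions on the compact open subsets of
`SL_n(k)` which are bounded and invariant under the conjugations by a cocompact subgroup vanish
off the centre.
-/

set_option linter.all false

namespace Vale.Agent.P092.H361

open Matrix Matrix.SpecialLinearGroup Filter Topology

/-- Compact open sets. -/
def CO {G : Type*} [TopologicalSpace G] (C : Set G) : Prop := IsCompact C ∧ IsOpen C

section
variable {G : Type*} [TopologicalSpace G]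

theorem CO.empty : CO (∅ : Set G) := ⟨isCompact_empty, isOpen_empty⟩

theorem CO.union {C D : Set G} (hC : CO C) (hD : CO D) : CO (C ∪ D) :=
  ⟨hC.1.union hD.1, hC.2.union hD.2⟩

theorem CO.inter [T2Space G] {C D : Set G} (hC : CO C) (hD : CO D) : CO (C ∩ D) :=
  ⟨hC.1.inter hD.1, hC.2.inter hD.2⟩

theorem CO.diff [T2Space G] {C D : Set G} (hC : CO C) (hD : CO D) : CO (C \ D) :=
  ⟨hC.1.diff hD.2, hC.2.sdiff hD.1.isClosed⟩

theorem CO.interClopen {C D : Set G} (hC : CO C) (hD : IsClopen D) : CO (C ∩ D) :=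
  ⟨hC.1.inter_right hD.1, hC.2.inter hD.2⟩

/-- A finitely additive nonnegative function on the compact open sets. -/
structure FA (ν : Set G → ℝ) : Prop where
  nonneg : ∀ C, CO C → 0 ≤ ν C
  add : ∀ C D, CO C → CO D → Disjoint C D → ν (C ∪ D) = ν C + ν D

theorem FA.empty {ν : Set G → ℝ} (h : FA ν) : ν ∅ = 0 := by
  have := h.add ∅ ∅ CO.empty CO.empty (by simp)
  simp only [Set.union_empty] at this
  linarith

theorem FA.mono [T2Space G] {ν : Set G → ℝ} (h : FA ν) {C D : Set G} (hC : CO C) (hD : CO D)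
    (hCD : C ⊆ D) : ν C ≤ ν D := by
  have h2 := h.add C (D \ C) hC (hD.diff hC) Set.disjoint_sdiff_right
  rw [Set.union_diff_cancel hCD] at h2
  linarith [h.nonneg _ (hD.diff hC)]

/-- Wandering sets are null. -/
theorem FA.wander {ν : Set G → ℝ} (h : FA ν) {B : ℝ} (hB : ∀ C, CO C → ν C ≤ B) {c : ℝ}
    (hw : ∀ K : Set G, CO K → ∃ E, CO E ∧ Disjoint K E ∧ ν E = c) : c ≤ 0 := by
  have key : ∀ m : ℕ, ∃ D, CO D ∧ ν D = m * c := by
    intro m
    induction m with
    | zero => exact ⟨∅, CO.empty, by simp [h.empty]⟩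
    | succ m ih =>
      obtain ⟨D, hD, h1⟩ := ih
      obtain ⟨E, hE, h2, h3⟩ := hw D hD
      refine ⟨D ∪ E, hD.union hE, ?_⟩
      rw [h.add D E hD hE h2, h1, h3]
      push_cast
      ring
  by_contra hc
  rw [not_le] at hc
  obtain ⟨m, hm⟩ := exists_nat_gt (B / c)
  obtain ⟨D, hD, h1⟩ := key m
  have h2 := hB D hD
  rw [h1] at h2
  rw [div_lt_iff₀ hc] at hm
  linarith

/-- Locally null implies null. -/
theorem FA.local_null [T2Space G] {ν : Set G → ℝ} (h : FA ν) {E : Set G} (hE : CO E)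
    (hx : ∀ x ∈ E, ∃ U : Set G, IsClopen U ∧ x ∈ U ∧ ν (E ∩ U) = 0) : ν E = 0 := by
  have key : ∃ D : Set G, IsClopen D ∧ E ⊆ D ∧ ν (E ∩ D) = 0 := by
    refine hE.1.induction_on (p := fun s => ∃ D : Set G, IsClopen D ∧ s ⊆ D ∧ ν (E ∩ D) = 0)
      ⟨∅, isClopen_empty, by simp, by simp [h.empty]⟩ ?_ ?_ ?_
    · rintro s t hst ⟨D, h1, h2, h3⟩
      exact ⟨D, h1, hst.trans h2, h3⟩
    · rintro s t ⟨D, h1, h2, h3⟩ ⟨D', h1', h2', h3'⟩
      refine ⟨D ∪ D', h1.union h1', Set.union_subset_union h2 h2', ?_⟩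
      have h4 : E ∩ (D ∪ D') = (E ∩ D) ∪ ((E ∩ D') ∩ Dᶜ) := by
        ext y
        simp only [Set.mem_inter_iff, Set.mem_union, Set.mem_compl_iff]
        tauto
      have h5 : CO ((E ∩ D') ∩ Dᶜ) := (hE.interClopen h1').interClopen h1.compl
      rw [h4, h.add _ _ (hE.interClopen h1) h5 ?_]
      · have h6 := h.mono h5 (hE.interClopen h1') Set.inter_subset_left
        have h7 := h.nonneg _ h5
        rw [h3'] at h6
        linarith
      · rw [Set.disjoint_left]
        intro y hy hy'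
        exact hy'.2 hy.2
    · intro x hx'
      obtain ⟨U, h1, h2, h3⟩ := hx x hx'
      exact ⟨U, mem_nhdsWithin_of_mem_nhds (h1.2.mem_nhds h2), U, h1, subset_rfl, h3⟩
  obtain ⟨D, h1, h2, h3⟩ := key
  rwa [Set.inter_eq_left.2 h2] at h3

end

/-- The conjugate `r E r⁻¹`. -/
def cj {G : Type*} [Group G] (r : G) (E : Set G) : Set G := {y | r⁻¹ * y * r ∈ E}

theorem cj_co {G : Type*} [Group G] [TopologicalSpace G] [IsTopologicalGroup G] (r : G)
    {E : Set G} (hE : CO E) : CO (cj r E) := by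
  have h1 : cj r E = (fun y => r * y * r⁻¹) '' E := by
    ext y
    constructor
    · intro hy
      exact ⟨_, hy, by group⟩
    · rintro ⟨z, hz, rfl⟩
      show r⁻¹ * (r * z * r⁻¹) * r ∈ E
      have : r⁻¹ * (r * z * r⁻¹) * r = z := by group
      rwa [this]
  refine ⟨?_, ?_⟩
  · rw [h1]
    exact hE.1.image (by fun_prop)
  · exact hE.2.preimage (by fun_prop)

section SL
variable {k : Type} [NontriviallyNormedField k] [IsUltrametricDist k] {n : Type} [Fintype n]
  [DecidableEq n]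

/-- A noncentral element has a conjugate with a nonzero off-diagonal entry. -/
theorem exists_offdiag {F : Type} [Field F] {x : SpecialLinearGroup n F}
    (hx : x ∉ Subgroup.center (SpecialLinearGroup n F)) :
    ∃ (g : SpecialLinearGroup n F) (i j : n), i ≠ j ∧
      ((g * x * g⁻¹ : SpecialLinearGroup n F) : Matrix n n F) j i ≠ 0 := by
  by_contra hcon
  push Not at hcon
  apply hx
  have h1 : ∀ i j : n, i ≠ j → (x : Matrix n n F) j i = 0 := by
    intro i j hij
    have := hcon 1 i j hij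
    simpa using this
  have h2 : ∀ i j : n, (x : Matrix n n F) i i = (x : Matrix n n F) j j := by
    intro i j
    by_cases hij : i = j
    · rw [hij]
    have h3 := hcon (H971.e (F := F) (Ne.symm hij) 1) i j hij
    rw [H971.e_inv, coe_mul, coe_mul, H971.e_val, H971.e_val] at h3
    have h4 : (x : Matrix n n F) = Matrix.diagonal (fun l => (x : Matrix n n F) l l) := by
      ext a b
      by_cases hab : a = b
      · subst hab; simp
      · rw [Matrix.diagonal_apply_ne _ hab]
        exact h1 b a (Ne.symm hab)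
    rw [h4] at h3
    simp only [Matrix.add_mul, Matrix.mul_add, one_mul, mul_one] at h3
    simp [Matrix.add_apply, Matrix.diagonal_apply, Matrix.single_apply, hij, Ne.symm hij] at h3
    linear_combination h3
  rw [mem_center_iff]
  rcases isEmpty_or_nonempty n with he | ⟨⟨i⟩⟩
  · exact ⟨1, by simp, by ext a; exact he.elim a⟩
  · have h5 : (x : Matrix n n F) = Matrix.scalar n ((x : Matrix n n F) i i) := by
      ext a b
      by_cases hab : a = b
      · subst hab
        simp [h2 a i]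
      · simp [hab, h1 b a (Ne.symm hab)]
    refine ⟨(x : Matrix n n F) i i, ?_, h5.symm⟩
    have h6 := x.2
    have h7 : (x : Matrix n n F).det = 1 := h6
    rw [h5, Matrix.scalar_apply, Matrix.det_diagonal] at h7
    simpa using h7


/-- The entry which grows. -/
theorem entry {F : Type} [Field F] {i j : n} (hij : i ≠ j) (t : F) (y : SpecialLinearGroup n F) :
    ((H971.e hij t * y * (H971.e hij t)⁻¹ : SpecialLinearGroup n F) : Matrix n n F) i j =
      (y : Matrix n n F) i j + t * (y : Matrix n n F) j j - t * (y : Matrix n n F) i i -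
        t ^ 2 * (y : Matrix n n F) j i := by
  rw [H971.e_inv, coe_mul, coe_mul, H971.e_val, H971.e_val]
  simp only [Matrix.add_mul, Matrix.mul_add, one_mul, mul_one, Matrix.add_apply]
  simp only [Matrix.mul_assoc]
  simp only [Matrix.single_mul_apply_same, Matrix.mul_single_apply_same]
  ring

theorem bdd_of_compact {K : Set (SpecialLinearGroup n k)} (hK : IsCompact K) :
    ∃ B : ℝ, 0 ≤ B ∧ ∀ y ∈ K, ∀ i j, ‖(y : Matrix n n k) i j‖ ≤ B := by
  have h1 : ∀ i j : n, ∃ B : ℝ, ∀ y ∈ K, ‖(y : Matrix n n k) i j‖ ≤ B := by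
    intro i j
    obtain ⟨B, hB⟩ := (hK.image (f := fun y : SpecialLinearGroup n k => (y : Matrix n n k) i j)
      (by
        have : Continuous fun y : SpecialLinearGroup n k => (y : Matrix n n k) :=
          continuous_subtype_val
        fun_prop)).isBounded.exists_norm_le
    exact ⟨B, fun y hy => hB _ ⟨y, hy, rfl⟩⟩
  choose B hB using h1
  refine ⟨∑ i, ∑ j, |B i j|, Finset.sum_nonneg fun i _ => Finset.sum_nonneg fun j _ => abs_nonneg _,
    fun y hy i j => ?_⟩
  refine (hB i j y hy).trans ((le_abs_self _).trans ?_)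
  refine (Finset.single_le_sum (f := fun j => |B i j|) (fun j _ => abs_nonneg _)
    (Finset.mem_univ j)).trans ?_
  exact Finset.single_le_sum (f := fun i => ∑ j, |B i j|)
    (fun i _ => Finset.sum_nonneg fun j _ => abs_nonneg _) (Finset.mem_univ i)

/-- Near a noncentral element there are arbitrarily far conjugates by elements of a cocompact
subgroup. -/
theorem leave (R : Set (SpecialLinearGroup n k)) {C₁ : Set (SpecialLinearGroup n k)}
    (hC₁ : IsCompact C₁) (hR : ∀ g, ∃ c ∈ C₁, ∃ r ∈ R, g = c * r)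
    {x : SpecialLinearGroup n k} (hx : x ∉ Subgroup.center (SpecialLinearGroup n k)) :
    ∃ U : Set (SpecialLinearGroup n k), IsClopen U ∧ x ∈ U ∧
      ∀ E K : Set (SpecialLinearGroup n k), IsCompact E → IsCompact K →
        ∃ r ∈ R, ∀ y ∈ E ∩ U, r * y * r⁻¹ ∉ K := by
  obtain ⟨g, i, j, hij, hne⟩ := exists_offdiag hx
  set c := ((g * x * g⁻¹ : SpecialLinearGroup n k) : Matrix n n k) j i with hc
  have hcont : Continuous fun y : SpecialLinearGroup n k =>
      ((g * y * g⁻¹ : SpecialLinearGroup n k) : Matrix n n k) j i := by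
    have h0 : Continuous fun y : SpecialLinearGroup n k => g * y * g⁻¹ := by fun_prop
    have h1 : Continuous fun y : SpecialLinearGroup n k => (y : Matrix n n k) :=
      continuous_subtype_val
    have h2 := h1.comp h0
    exact (continuous_apply_apply j i).comp h2
  refine ⟨(fun y : SpecialLinearGroup n k =>
      ((g * y * g⁻¹ : SpecialLinearGroup n k) : Matrix n n k) j i) ⁻¹' Metric.ball c ‖c‖,
    (IsUltrametricDist.isClopen_ball c ‖c‖).preimage hcont, ?_, ?_⟩
  · simp only [Set.mem_preimage, Metric.mem_ball]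
    rw [← hc, dist_self]
    exact norm_pos_iff.2 hne
  intro E K hE hK
  obtain ⟨B, hB0, hB⟩ := bdd_of_compact (hE.image (f := fun y : SpecialLinearGroup n k => g * y * g⁻¹)
    (by fun_prop))
  obtain ⟨B', hB0', hB'⟩ := bdd_of_compact ((hC₁.prod hK).image
    (f := fun p : SpecialLinearGroup n k × SpecialLinearGroup n k => g * (p.1 * p.2 * p.1⁻¹) * g⁻¹)
    (by fun_prop))
  have hcpos : 0 < ‖c‖ := norm_pos_iff.2 hne
  obtain ⟨t, ht⟩ := NormedField.exists_lt_norm k (1 + (B' + 3 * B + 1) / ‖c‖)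
  have ht1 : 1 < ‖t‖ := lt_of_le_of_lt (by
    have : 0 ≤ (B' + 3 * B + 1) / ‖c‖ := by positivity
    linarith) ht
  obtain ⟨c₁, hc₁, r, hr, hrc⟩ := hR (g⁻¹ * H971.e hij t * g)
  refine ⟨r, hr, fun y hy hyK => ?_⟩
  have h1 : g * (c₁ * (r * y * r⁻¹) * c₁⁻¹) * g⁻¹ =
      H971.e hij t * (g * y * g⁻¹) * (H971.e hij t)⁻¹ := by
    have h2 : c₁ * (r * y * r⁻¹) * c₁⁻¹ = (c₁ * r) * y * (c₁ * r)⁻¹ := by group
    rw [h2, ← hrc]
    group
  have h3 := hB' _ ⟨(c₁, r * y * r⁻¹), ⟨hc₁, hyK⟩, rfl⟩ i j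
  simp only [h1, entry] at h3
  have h4 : ∀ a b, ‖((g * y * g⁻¹ : SpecialLinearGroup n k) : Matrix n n k) a b‖ ≤ B :=
    hB _ ⟨y, hy.1, rfl⟩
  have h5 : ‖c‖ ≤ ‖((g * y * g⁻¹ : SpecialLinearGroup n k) : Matrix n n k) j i‖ := by
    have h6 := hy.2
    simp only [Set.mem_preimage, Metric.mem_ball, dist_eq_norm] at h6
    by_contra hlt
    have h7 := IsUltrametricDist.norm_add_le_max
      (((g * y * g⁻¹ : SpecialLinearGroup n k) : Matrix n n k) j i)
      (-(((g * y * g⁻¹ : SpecialLinearGroup n k) : Matrix n n k) j i - c))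
    rw [norm_neg, ← sub_eq_add_neg, sub_sub_cancel] at h7
    rcases le_max_iff.1 h7 with h8 | h8
    · exact hlt h8
    · exact absurd h8 (not_le.2 h6)
  have h6 : ‖t‖ * ‖c‖ > B' + 3 * B := by
    have h7 : (B' + 3 * B + 1) / ‖c‖ < ‖t‖ := by linarith
    rw [div_lt_iff₀ hcpos] at h7
    linarith
  generalize ((g * y * g⁻¹ : SpecialLinearGroup n k) : Matrix n n k) = Y at h3 h4 h5
  have h7 : ‖t ^ 2 * Y j i‖ ≤ ‖Y i j + t * Y j j - t * Y i i - t ^ 2 * Y j i‖ +
      (‖Y i j‖ + ‖t‖ * ‖Y j j‖ + ‖t‖ * ‖Y i i‖) := by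
    have h8 : t ^ 2 * Y j i = -(Y i j + t * Y j j - t * Y i i - t ^ 2 * Y j i) +
        (Y i j + t * Y j j - t * Y i i) := by ring
    calc ‖t ^ 2 * Y j i‖ = ‖-(Y i j + t * Y j j - t * Y i i - t ^ 2 * Y j i) +
        (Y i j + t * Y j j - t * Y i i)‖ := congrArg _ h8
      _ ≤ _ := norm_add_le _ _
      _ ≤ _ := by
        rw [norm_neg]
        gcongr
        refine (norm_sub_le _ _).trans ?_
        rw [norm_mul]
        gcongr
        refine (norm_add_le _ _).trans ?_
        rw [norm_mul]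
  rw [norm_mul, norm_pow] at h7
  have h8 : ‖t‖ ^ 2 * ‖c‖ ≤ B' + (B + ‖t‖ * B + ‖t‖ * B) := by
    calc ‖t‖ ^ 2 * ‖c‖ ≤ ‖t‖ ^ 2 * ‖Y j i‖ := by gcongr
      _ ≤ _ := h7
      _ ≤ B' + (B + ‖t‖ * B + ‖t‖ * B) := by
        gcongr
        · exact h4 i j
        · exact h4 j j
        · exact h4 i i
  nlinarith [mul_pos (lt_trans one_pos ht1) (sub_pos.2 h6), mul_nonneg (sub_nonneg.2 ht1.le) hB0',
    mul_nonneg (sub_nonneg.2 ht1.le) hB0]

/-- (K1) A bounded finitely additive function on the compact open sets of `SL_n(k)`, invariant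
under the conjugations by a cocompact set, vanishes off the centre. -/
theorem fa_zero [ProperSpace k] {ν : Set (SpecialLinearGroup n k) → ℝ} (h : FA ν) {B : ℝ}
    (hB : ∀ C, CO C → ν C ≤ B) (R : Set (SpecialLinearGroup n k))
    {C₁ : Set (SpecialLinearGroup n k)} (hC₁ : IsCompact C₁)
    (hR : ∀ g, ∃ c ∈ C₁, ∃ r ∈ R, g = c * r)
    (hinv : ∀ r ∈ R, ∀ C, CO C → ν (cj r C) = ν C) {E : Set (SpecialLinearGroup n k)}
    (hE : CO E) (hc : ∀ x ∈ E, x ∉ Subgroup.center (SpecialLinearGroup n k)) : ν E = 0 := by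
  refine h.local_null hE fun x hx => ?_
  obtain ⟨U, hU, hxU, hl⟩ := leave R hC₁ hR (hc x hx)
  refine ⟨U, hU, hxU, le_antisymm ?_ (h.nonneg _ (hE.interClopen hU))⟩
  refine h.wander hB fun K hK => ?_
  obtain ⟨r, hr, h1⟩ := hl E K hE.1 hK.1
  refine ⟨cj r (E ∩ U), cj_co r (hE.interClopen hU), ?_, hinv r hr _ (hE.interClopen hU)⟩
  rw [Set.disjoint_left]
  intro y hy hy'
  have h2 := h1 (r⁻¹ * y * r) hy'
  apply h2
  have h3 : r * (r⁻¹ * y * r) * r⁻¹ = y := by group
  rwa [h3]

end SL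
end Vale.Agent.P092.H361
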